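import Mathlib
import Vale.Agent.Lib.P042.Adaptive

namespace Vale.Agent.Results.P042.AdaptiveRuzsa

/-- There is `c > 0` such that for every `N ≥ 1` some `A ⊆ {1, …, N}` has no two elements
differing by a positive perfect square and `|A| ≥ c * N ^ (47 / 64)`.
Since `47 / 64 = 0.734375 > 0.733411…`, this improves the exponent of the best known lower
bound for the square-difference problem. -/
theorem result : ∃ c : ℝ, 0 < c ∧ ∀ N : ℕ, 1 ≤ N → ∃ A : Finset ℕ, A ⊆ Finset.Icc 1 N ∧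
    (∀ x ∈ A, ∀ y ∈ A, ∀ n : ℕ, 1 ≤ n → x ≠ y + n ^ 2) ∧
    c * (N : ℝ) ^ ((47 : ℝ) / 64) ≤ (A.card : ℝ) :=
  Vale.Agent.Lib.P042.Adaptive.main

end Vale.Agent.Results.P042.AdaptiveRuzsa
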